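import Vale.Agent.P025.R2.H577.MainA
import Vale.Agent.P025.R2.H855.Final3

/-! # The local `p`-adic section conjecture: the final statement, from statement (III) -/

open IntermediateField

namespace P025H855

open P025H641 P025H206 P025H722 P025H851

universe u v

/-- the final statement, from (III) -/
theorem result_of
    (hIII : ∀ (p : ℕ) [Fact p.Prime] (kb : Type v) [Field kb] [Algebra ℚ_[p] kb]
      [Algebra.IsAlgebraic ℚ_[p] kb] [IsAlgClosed kb], StmtIII.{v, v} (Cp p kb))
    (p : ℕ) [Fact p.Prime] (k : Type u) [Field k] [Algebra ℚ_[p] k]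
    [FiniteDimensional ℚ_[p] k] (K : Type v) [Field K] [Algebra k K] (hK : IsHyperbolic k K) :
    haveI : CharZero k := charZero_of_injective_algebraMap (algebraMap ℚ_[p] k).injective
    ∃ e : {V : ValuationSubring K // IsRatPlace k K V} ≃ Quotient (sectionSetoid k K),
      ∀ (V : {V : ValuationSubring K // IsRatPlace k K V}) (s : Section k K),
        e V = Quotient.mk (sectionSetoid k K) s ↔ ∃ W : ValuationSubring (maxUnr k K),
          W.comap (algebraMap K (maxUnr k K)) = V.1 ∧ IsSectionOf s W := by
  have hchar : CharZero k := charZero_of_injective_algebraMap (algebraMap ℚ_[p] k).injective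
  obtain ⟨e, he⟩ := P025H577.conjecture_of_III hIII p k K hK
  exact ⟨e, fun V s => (he V s).trans (exists_isSectionOf_iff hK.funField s V.2)⟩

end P025H855
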